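import Vale.Agent.P352.BW.B
import Mathlib.Analysis.Calculus.Deriv.Star

/-!
# P352 BWT, block S: the boosts are the modular unitaries on the one-field vectors (helper23)
-/

set_option linter.all false

open MeasureTheory Filter Topology
open scoped ComplexConjugate InnerProductSpace BoundedContinuousFunction

namespace Vale.Agent.P352.BW.H23

open Vale.Agent.P132 (ModData expB reflB)

variable {H : Type*} [NormedAddCommGroup H] [InnerProductSpace ℂ H] [CompleteSpace H]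
variable {M : VonNeumannAlgebra H} {ξ : H}

/-- `z ↦ V(z) x` extends to `-1/2 ≤ Im z ≤ 0`, with the value `V(t) x'` at `t - i/2` -/
structure Ct (V : ℝ → H → H) (x x' : H) : Prop where
  ex : ∃ (φ : ℂ → H) (C : ℝ),
    (∀ y, DifferentiableOn ℂ (fun z => ⟪y, φ z⟫_ℂ) {z | -(1 / 2) < z.im ∧ z.im < 0}) ∧
    (∀ y, ContinuousOn (fun z => ⟪y, φ z⟫_ℂ) {z | -(1 / 2) ≤ z.im ∧ z.im ≤ 0}) ∧
    (∀ z : ℂ, -(1 / 2) ≤ z.im → z.im ≤ 0 → ‖φ z‖ ≤ C) ∧
    ∀ t : ℝ, φ t = V t x ∧ φ (t - Complex.I / 2) = V t x'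

theorem pair_cont {T : ℂ → H →L[ℂ] H} {φ : ℂ → H} {u : H} {s : Set ℂ} {z₀ : ℂ} {C : ℝ}
    (hT : ContinuousWithinAt T s z₀)
    (hφ : ∀ y, ContinuousWithinAt (fun z => ⟪y, φ z⟫_ℂ) s z₀) (hC : ∀ z ∈ s, ‖φ z‖ ≤ C) :
    ContinuousWithinAt (fun z => ⟪u, T z (φ z)⟫_ℂ) s z₀ := by
  have h1 : ContinuousWithinAt (fun z => ⟪u, (T z - T z₀) (φ z)⟫_ℂ +
      ⟪ContinuousLinearMap.adjoint (T z₀) u, φ z⟫_ℂ) s z₀ := by
    refine ContinuousWithinAt.add ?_ (hφ _)
    have h2 : Tendsto (fun z => ‖u‖ * (‖T z - T z₀‖ * C)) (𝓝[s] z₀) (𝓝 0) := by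
      have h3 : Tendsto (fun z => ‖T z - T z₀‖) (𝓝[s] z₀) (𝓝 0) := by
        rw [← tendsto_iff_norm_sub_tendsto_zero]
        exact hT
      simpa using (h3.mul_const C).const_mul ‖u‖
    have h4 : Tendsto (fun z => ⟪u, (T z - T z₀) (φ z)⟫_ℂ) (𝓝[s] z₀) (𝓝 0) := by
      refine squeeze_zero_norm' ?_ h2
      filter_upwards [self_mem_nhdsWithin] with z hz
      refine (norm_inner_le_norm _ _).trans (mul_le_mul_of_nonneg_left ?_ (norm_nonneg _))
      exact ((T z - T z₀).le_opNorm _).trans (mul_le_mul_of_nonneg_left (hC z hz) (norm_nonneg _))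
    have h5 : ⟪u, (T z₀ - T z₀) (φ z₀)⟫_ℂ = 0 := by simp
    rw [ContinuousWithinAt, h5]
    exact h4
  refine h1.congr (fun z hz => ?_) ?_
  · rw [ContinuousLinearMap.adjoint_inner_left, ContinuousLinearMap.sub_apply, inner_sub_right]
    ring
  · rw [ContinuousLinearMap.adjoint_inner_left, ContinuousLinearMap.sub_apply, inner_sub_right]
    ring

theorem pair_diff {T : ℂ → H →L[ℂ] H} {φ : ℂ → H} {u : H} {s : Set ℂ} {C : ℝ} (hs : IsOpen s)
    (hT : DifferentiableOn ℂ T s) (hφ : ∀ y, DifferentiableOn ℂ (fun z => ⟪y, φ z⟫_ℂ) s)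
    (hC : ∀ z ∈ s, ‖φ z‖ ≤ C) : DifferentiableOn ℂ (fun z => ⟪u, T z (φ z)⟫_ℂ) s := by
  intro z₀ hz₀
  have hT0 : DifferentiableAt ℂ T z₀ := (hT z₀ hz₀).differentiableAt (hs.mem_nhds hz₀)
  set R : ℂ → H →L[ℂ] H := dslope T z₀ with hR
  have hRc : ContinuousAt R z₀ := continuousAt_dslope_same.2 hT0
  have h1 : ContinuousAt (fun z => ⟪u, R z (φ z)⟫_ℂ) z₀ := by
    refine (pair_cont (s := s) (C := C) hRc.continuousWithinAt
      (fun y => (hφ y z₀ hz₀).continuousWithinAt) hC).continuousAt (hs.mem_nhds hz₀)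
  have h2 : HasDerivAt (fun z => (z - z₀) * ⟪u, R z (φ z)⟫_ℂ) ⟪u, R z₀ (φ z₀)⟫_ℂ z₀ := by
    rw [hasDerivAt_iff_tendsto_slope]
    refine (h1.tendsto.mono_left nhdsWithin_le_nhds).congr' ?_
    filter_upwards [self_mem_nhdsWithin] with z hz
    have hz' : z - z₀ ≠ 0 := sub_ne_zero.2 hz
    rw [slope_def_field]
    simp only [sub_self, zero_mul, sub_zero]
    field_simp
  have h3 : DifferentiableAt ℂ (fun z => (z - z₀) * ⟪u, R z (φ z)⟫_ℂ +
      ⟪ContinuousLinearMap.adjoint (T z₀) u, φ z⟫_ℂ) z₀ :=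
    h2.differentiableAt.add ((hφ _ z₀ hz₀).differentiableAt (hs.mem_nhds hz₀))
  refine (h3.congr_of_eventuallyEq (Eventually.of_forall fun z => ?_)).differentiableWithinAt
  have h4 : T z = (z - z₀) • R z + T z₀ := by
    rw [hR, sub_smul_dslope]
    abel
  show ⟪u, T z (φ z)⟫_ℂ = (z - z₀) * ⟪u, R z (φ z)⟫_ℂ +
    ⟪ContinuousLinearMap.adjoint (T z₀) u, φ z⟫_ℂ
  rw [ContinuousLinearMap.adjoint_inner_left]
  conv_lhs => rw [h4]
  rw [ContinuousLinearMap.add_apply, inner_add_right, ContinuousLinearMap.smul_apply,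
    inner_smul_right]

theorem reflB_compact {κ : ℝ →ᵇ ℂ} (hκ : HasCompactSupport κ) : HasCompactSupport (reflB κ) := by
  have h1 : HasCompactSupport (fun h : ℝ => κ (-h)) :=
    hκ.comp_homeomorph (Homeomorph.neg ℝ)
  exact h1.comp_left (g := fun z => conj z) (map_zero _)

variable (DM : ModData M ξ)

theorem ez_ap (κ : ℝ →ᵇ ℂ) (hκ : HasCompactSupport κ) (z : ℂ) (h : ℝ) :
    ez κ hκ z h = Complex.exp (z * h) * κ h := rfl

theorem refl_ez (κ : ℝ →ᵇ ℂ) (hκ : HasCompactSupport κ) (hκ' : HasCompactSupport (reflB κ))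
    (s : ℝ) : DM.Th (reflB (ez (reflB κ) hκ' (Complex.I * s))) = DM.Th (ez κ hκ (Complex.I * s)) := by
  refine DM.gd_Th_congr fun h => ?_
  rw [Vale.Agent.P132.reflB_apply, ez_ap, ez_ap, Vale.Agent.P132.reflB_apply, map_mul,
    Complex.conj_conj, neg_neg, ← Complex.exp_conj]
  congr 2
  simp

theorem T_diff (κ : ℝ →ᵇ ℂ) (hκ : HasCompactSupport κ) :
    Differentiable ℂ fun z => DM.Th (ez κ hκ (Complex.I * z)) :=
  ((b_T DM).differentiable.comp (b_ez_diff κ hκ)).comp (by fun_prop)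

theorem T_bd (κ : ℝ →ᵇ ℂ) (hκ : HasCompactSupport κ) : ∃ B : ℝ, ∀ z : ℂ, -(1 / 2) ≤ z.im →
    z.im ≤ 1 / 2 → ‖DM.Th (ez κ hκ (Complex.I * z))‖ ≤ B := by
  obtain ⟨R, hR⟩ := hκ.isCompact.isBounded.subset_closedBall 0
  refine ⟨Real.exp (|R| / 2) * ‖κ‖, fun z h1 h2 => (DM.norm_Th_le _).trans ?_⟩
  rw [BoundedContinuousFunction.norm_le (by positivity)]
  intro h
  have e : ez κ hκ (Complex.I * z) h = Complex.exp (Complex.I * z * h) * κ h := rfl
  rw [e, norm_mul, Complex.norm_exp]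
  by_cases hh : κ h = 0
  · rw [hh]; simp only [norm_zero, mul_zero]; positivity
  · refine mul_le_mul (Real.exp_le_exp.2 ?_) (κ.norm_coe_le_norm h) (norm_nonneg _)
      (Real.exp_pos _).le
    have h3 : |h| ≤ |R| := by
      have := hR (subset_tsupport _ (Function.mem_support.2 hh))
      rw [mem_closedBall_zero_iff, Real.norm_eq_abs] at this
      exact this.trans (le_abs_self R)
    have h4 : (Complex.I * z * h).re = -(z.im * h) := by simp
    rw [h4]
    have h5 : |z.im * h| ≤ 1 / 2 * |R| := by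
      rw [abs_mul]
      exact mul_le_mul (abs_le.2 ⟨h1, h2⟩) h3 (abs_nonneg _) (by norm_num)
    have h6 := neg_abs_le (z.im * h)
    linarith

theorem sblock (hA : AStmt) (V : ℝ → H → H) (hV0 : ∀ z, V 0 z = z)
    (hVT : ∀ F t z, V t (DM.Th F z) = DM.Th F (V t z)) (hVJ : ∀ t z, V t (DM.J z) = DM.J (V t z))
    (x xj x' xs : H) (h1 : Ct V x xj) (h2 : Ct (fun t => V (-t)) x' xs)
    (hR : ∀ F G : ℝ →ᵇ ℂ, (∀ h : ℝ, F h = Real.exp (-(h / 2)) * G h) →
      DM.Th G (DM.J x') = DM.Th F xj)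
    (hL : ∀ F G : ℝ →ᵇ ℂ, (∀ h : ℝ, F h = Real.exp (h / 2) * G h) →
      DM.Th G (DM.J x) = DM.Th F xs) (t : ℝ) : DM.U t (V (-t) x) = x := by
  obtain ⟨φ, C₁, hφd, hφc, hφb, hφv⟩ := h1.ex
  obtain ⟨ψ, C₂, hψd, hψc, hψb, hψv⟩ := h2.ex
  rw [← sub_eq_zero]
  refine DM.gd_zero fun κ hκ => ?_
  rw [map_sub, sub_eq_zero]
  refine ext_inner_left ℂ fun u => ?_
  -- the two functions
  set κ' : ℝ →ᵇ ℂ := reflB κ with hκ'
  have hκc : HasCompactSupport κ' := reflB_compact hκ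
  set T : ℂ → H →L[ℂ] H := fun z => DM.Th (ez κ hκ (Complex.I * z)) with hT
  set T' : ℂ → H →L[ℂ] H := fun z => DM.Th (ez κ' hκc (Complex.I * z)) with hT'
  set f : ℂ → ℂ := fun z => ⟪u, T z (φ (-z))⟫_ℂ with hf
  set k : ℂ → ℂ := fun z => ⟪DM.J u, T' z (ψ z)⟫_ℂ with hk
  set g : ℂ → ℂ := fun z => conj (k (conj z)) with hg
  obtain ⟨B, hB⟩ := T_bd DM κ hκ
  obtain ⟨B', hB'⟩ := T_bd DM κ' hκc
  have oI : IsOpen StI := (isOpen_lt continuous_const Complex.continuous_im).inter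
    (isOpen_lt Complex.continuous_im continuous_const)
  have oL : IsOpen {z : ℂ | -(1 / 2) < z.im ∧ z.im < 0} :=
    (isOpen_lt continuous_const Complex.continuous_im).inter
      (isOpen_lt Complex.continuous_im continuous_const)
  have fd : DifferentiableOn ℂ f StI := by
    refine pair_diff (C := C₁) oI (T_diff DM κ hκ).differentiableOn (fun y => ?_) fun z hz => ?_
    · refine (hφd y).comp (differentiable_neg.differentiableOn) fun z hz => ?_
      simp only [Set.mem_setOf_eq, Complex.neg_im]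
      have h3 := hz.1
      have h4 := hz.2
      constructor <;> linarith
    · refine hφb _ ?_ ?_ <;> rw [Complex.neg_im] <;> [linarith [hz.2]; linarith [hz.1]]
  have kd : DifferentiableOn ℂ k {z : ℂ | -(1 / 2) < z.im ∧ z.im < 0} :=
    pair_diff (C := C₂) oL (T_diff DM κ' hκc).differentiableOn hψd fun z hz =>
      hψb z hz.1.le hz.2.le
  have gd : DifferentiableOn ℂ g StI := by
    intro z hz
    have h3 : DifferentiableAt ℂ k (conj z) :=
      (kd (conj z) (by
        simp only [Set.mem_setOf_eq, Complex.conj_im]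
        have h3 := hz.1
        have h4 := hz.2
        constructor <;> linarith)).differentiableAt (oL.mem_nhds (by
        simp only [Set.mem_setOf_eq, Complex.conj_im]
        have h3 := hz.1
        have h4 := hz.2
        constructor <;> linarith))
    exact (differentiableAt_conj_conj_iff.2 h3).differentiableWithinAt
  have fc : ContinuousOn f St := by
    intro z hz
    refine pair_cont (C := C₁) ((T_diff DM κ hκ).continuous.continuousWithinAt) (fun y => ?_)
      fun z hz => ?_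
    · refine ContinuousWithinAt.comp (g := fun w : ℂ => ⟪y, φ w⟫_ℂ) (f := fun w : ℂ => -w)
        (t := {z : ℂ | -(1 / 2) ≤ z.im ∧ z.im ≤ 0}) (hφc y (-z) ?_)
        continuous_neg.continuousWithinAt fun z hz => ?_
      · simp only [Set.mem_setOf_eq, Complex.neg_im]
        have h3 := hz.1
        have h4 := hz.2
        constructor <;> linarith
      · simp only [Set.mem_setOf_eq, Complex.neg_im]
        have h3 := hz.1
        have h4 := hz.2
        constructor <;> linarith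
    · refine hφb _ ?_ ?_ <;> rw [Complex.neg_im] <;> [linarith [hz.2]; linarith [hz.1]]
  have kc : ContinuousOn k {z : ℂ | -(1 / 2) ≤ z.im ∧ z.im ≤ 0} := by
    intro z hz
    exact pair_cont (C := C₂) ((T_diff DM κ' hκc).continuous.continuousWithinAt)
      (fun y => hψc y z hz) fun z hz => hψb z hz.1 hz.2
  have gc : ContinuousOn g St := by
    refine Complex.continuous_conj.comp_continuousOn (kc.comp
      Complex.continuous_conj.continuousOn fun z hz => ?_)
    simp only [Set.mem_setOf_eq, Complex.conj_im]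
    have h3 := hz.1
    have h4 := hz.2
    constructor <;> linarith
  have fb : ∀ z ∈ St, ‖f z‖ ≤ ‖u‖ * (B * C₁) := fun z hz => by
    have h3 : ‖φ (-z)‖ ≤ C₁ := by
      refine hφb _ ?_ ?_ <;> rw [Complex.neg_im] <;> [linarith [hz.2]; linarith [hz.1]]
    have h4 : ‖T z‖ ≤ B := hB z (by linarith [hz.1]) hz.2
    refine (norm_inner_le_norm _ _).trans (mul_le_mul_of_nonneg_left ?_ (norm_nonneg _))
    exact ((T z).le_opNorm _).trans (mul_le_mul h4 h3 (norm_nonneg _) ((norm_nonneg _).trans h4))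
  have gb : ∀ z ∈ St, ‖g z‖ ≤ ‖u‖ * (B' * C₂) := fun z hz => by
    have h3 : ‖ψ (conj z)‖ ≤ C₂ := by
      refine hψb _ ?_ ?_ <;> rw [Complex.conj_im] <;> [linarith [hz.2]; linarith [hz.1]]
    have h4 : ‖T' (conj z)‖ ≤ B' := by
      refine hB' _ ?_ ?_ <;> rw [Complex.conj_im] <;> [linarith [hz.2]; linarith [hz.1]]
    have h5 : ‖g z‖ = ‖k (conj z)‖ := RCLike.norm_conj _
    rw [h5]
    refine (norm_inner_le_norm _ _).trans ?_
    rw [DM.norm_J]
    refine mul_le_mul_of_nonneg_left ?_ (norm_nonneg _)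
    exact ((T' _).le_opNorm _).trans (mul_le_mul h4 h3 (norm_nonneg _) ((norm_nonneg _).trans h4))
  -- boundary values
  have eT : ∀ (s : ℝ) (v : H), T s v = DM.Th (ez κ hκ (Complex.I * s)) v := fun s v => rfl
  have v1 : ∀ s : ℝ, f s = ⟪u, DM.Th (ez κ hκ (Complex.I * s)) (V (-s) x)⟫_ℂ := by
    intro s
    have h3 : φ (-(s : ℂ)) = V (-s) x := by
      have := (hφv (-s)).1
      rwa [Complex.ofReal_neg] at this
    rw [hf]
    simp only [hT, h3]
  have v2 : ∀ s : ℝ, f (s + Complex.I / 2) =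
      ⟪u, DM.Th (ez κ hκ (Complex.I * s)) (DM.J (V (-s) x'))⟫_ℂ := by
    intro s
    have h3 : φ (-((s : ℂ) + Complex.I / 2)) = V (-s) xj := by
      have := (hφv (-s)).2
      rw [Complex.ofReal_neg] at this
      rw [← this]
      congr 1
      ring
    have h4 : DM.Th (ez κ hκ (Complex.I * (s + Complex.I / 2))) (V (-s) xj) =
        DM.Th (ez κ hκ (Complex.I * s)) (DM.J (V (-s) x')) := by
      rw [← hVJ, ← hVT, ← hVT, hR _ _ fun h => ?_]
      have e1 : ez κ hκ (Complex.I * (s + Complex.I / 2)) h =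
        Complex.exp (Complex.I * (s + Complex.I / 2) * h) * κ h := rfl
      have e2 : ez κ hκ (Complex.I * s) h = Complex.exp (Complex.I * s * h) * κ h := rfl
      rw [e1, e2, ← mul_assoc, Complex.ofReal_exp, ← Complex.exp_add]
      congr 2
      push_cast
      linear_combination (h / 2 : ℂ) * Complex.I_mul_I
    rw [hf]
    simp only [hT, h3, h4]
  have v3 : ∀ s : ℝ, g s = ⟪u, DM.Th (ez κ hκ (Complex.I * s)) (DM.J (V (-s) x'))⟫_ℂ := by
    intro s
    have h3 : ψ (s : ℂ) = V (-s) x' := (hψv s).1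
    have h4 : g s = conj (⟪DM.J u, DM.Th (ez κ' hκc (Complex.I * s)) (V (-s) x')⟫_ℂ) := by
      rw [hg]
      simp only [hk, hT', Complex.conj_ofReal, h3]
    rw [h4, inner_conj_symm, DM.inner_J_right, DM.J_Th, refl_ez DM κ hκ]
  have v4 : ∀ s : ℝ, g (s + Complex.I / 2) = ⟪u, DM.Th (ez κ hκ (Complex.I * s)) (V (-s) x)⟫_ℂ := by
    intro s
    have h3 : ψ ((s : ℂ) - Complex.I / 2) = V (-s) xs := (hψv s).2
    have h5 : DM.Th (ez κ' hκc (Complex.I * (s - Complex.I / 2))) (V (-s) xs) =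
        DM.Th (ez κ' hκc (Complex.I * s)) (DM.J (V (-s) x)) := by
      rw [← hVJ, ← hVT, ← hVT, hL _ _ fun h => ?_]
      rw [ez_ap, ez_ap, ← mul_assoc, Complex.ofReal_exp, ← Complex.exp_add]
      congr 2
      push_cast
      linear_combination (-(h / 2 : ℂ)) * Complex.I_mul_I
    have h4 : g (s + Complex.I / 2) =
        conj (⟪DM.J u, DM.Th (ez κ' hκc (Complex.I * s)) (DM.J (V (-s) x))⟫_ℂ) := by
      have h6 : conj ((s : ℂ) + Complex.I / 2) = (s : ℂ) - Complex.I / 2 := by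
        rw [map_add, Complex.conj_ofReal, map_div₀, Complex.conj_I]
        simp only [map_ofNat]
        ring
      rw [hg]
      simp only [hk, hT', h6, h3, h5]
    rw [h4, inner_conj_symm, DM.inner_J_right, DM.J_Th, refl_ez DM κ hκ, DM.J_J]
  have h6 := hA f g (max (‖u‖ * (B * C₁)) (‖u‖ * (B' * C₂))) fd gd
    (fc.mono Set.diff_subset) (gc.mono Set.diff_subset)
    (fun z hz => (fb z hz).trans (le_max_left _ _)) (fun z hz => (gb z hz).trans (le_max_right _ _))
    (fun s _ => (v2 s).trans (v3 s).symm) (fun s _ => (v4 s).trans (v1 s).symm) t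
  have h7 : ∀ s : ℝ, f s = ⟪u, DM.Th κ (DM.U s (V (-s) x))⟫_ℂ := by
    intro s
    rw [v1, ModData.U, ← DM.gd_Th_mul, DM.gd_Th_congr (F := ez κ hκ (Complex.I * s))
      (G := κ * expB s) fun h => ?_]
    rw [ez_ap, BoundedContinuousFunction.mul_apply, Vale.Agent.P132.expB_apply, mul_comm]
    congr 2
    push_cast
    ring
  have h8 : f 0 = ⟪u, DM.Th κ x⟫_ℂ := by
    have h9 := v1 0
    rw [Complex.ofReal_zero] at h9
    rw [h9, neg_zero, hV0, DM.gd_Th_congr (F := ez κ hκ (Complex.I * 0)) (G := κ) fun h => ?_]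
    rw [ez_ap]
    simp
  rw [← h7, ← h8]
  exact_mod_cast h6

end Vale.Agent.P352.BW.H23
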